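import Vale.Agent.P141.H876.OmFar

/-!
# P141, line (A): the points near coarse grids

* `nearG k i y` : `y` is within `2 ^ k` of the ends of its cell of scale `i` (no shift);
* `far ep n L y` : the weighted sum of `nearG` over the layers `i` with `k + L ≤ i`;
* `om_le_near`, `om_le_far` : it dominates the weights `om` of every shift;
* `far_sum` : the sum over a root cell; `bad_meas` : few points where it is large.
-/

namespace Vale.Agent.P141.H403

open Finset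
open Vale.Agent.P141.PL (iv ix mem_iv ix_ix card_iv)
open Vale.Agent.P141.H922 (iv_iv)
open Vale.Agent.P141.H841 (om om_nonneg st st_bd ix_bd ix_of)
open Vale.Agent.P141.H876 (sum_ind_le card_Ico_pow cross_near tail_sum)

noncomputable section

open scoped Classical

/-- within `2 ^ k` of the grid of scale `i` -/
def nearG (k i : ℕ) (y : ℤ) : ℝ :=
  if y < 2 ^ i * ix i y + 2 ^ k ∨ 2 ^ i * ix i y + 2 ^ i - 2 ^ k ≤ y then 1 else 0

theorem nearG_nonneg (k i : ℕ) (y : ℤ) : 0 ≤ nearG k i y := by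
  unfold nearG
  split_ifs <;> norm_num

theorem nearG_le_one (k i : ℕ) (y : ℤ) : nearG k i y ≤ 1 := by
  unfold nearG
  split_ifs <;> norm_num

/-- the far layers at the point `y`, no shift in it -/
def far (ep : ℕ → ℝ) (n L : ℕ) (y : ℤ) : ℝ :=
  ∑ k ∈ range (n + 1), ∑ i ∈ range n,
    (if k + L ≤ i then 8 * (((i - k : ℕ) : ℝ) + 1) ^ 2 * nearG k i y * ep (i + 1) else 0)

theorem far_nonneg {ep : ℕ → ℝ} (hep : ∀ i, 0 ≤ ep i) (n L : ℕ) (y : ℤ) : 0 ≤ far ep n L y := by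
  unfold far
  refine sum_nonneg fun k _ => sum_nonneg fun i _ => ?_
  split_ifs
  · exact mul_nonneg (mul_nonneg (by positivity) (nearG_nonneg ..)) (hep _)
  · exact le_rfl

/-- **Every shift.** -/
theorem om_le_near (sh : ℤ) {k i : ℕ} (h : k ≤ i) (y : ℤ) :
    om sh k i y ≤ 8 * (((i - k : ℕ) : ℝ) + 1) ^ 2 * nearG k i y := by
  have e : ((i + 1 - k : ℕ) : ℝ) = ((i - k : ℕ) : ℝ) + 1 := by
    rw [Nat.sub_add_comm h]
    push_cast
    ring
  by_cases hc : ix i (st sh k y) = ix i (st sh k y + 2 ^ k)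
  · have : om sh k i y = 0 := by
      unfold om
      rw [if_neg (by omega), if_pos hc]
    rw [this]
    exact mul_nonneg (by positivity) (nearG_nonneg ..)
  · have h1 : nearG k i y = 1 := by
      unfold nearG
      rw [if_pos (cross_near sh hc)]
    rw [h1]
    unfold om
    rw [if_neg (by omega), if_neg hc, e, mul_one]

theorem om_le_far {ep : ℕ → ℝ} (hep : ∀ i, 0 ≤ ep i) (n L : ℕ) (sh y : ℤ) :
    ∑ k ∈ range (n + 1), ∑ i ∈ range n, (if k + L ≤ i then om sh k i y * ep (i + 1) else 0) ≤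
      far ep n L y := by
  unfold far
  refine sum_le_sum fun k _ => sum_le_sum fun i _ => ?_
  by_cases h : k + L ≤ i
  · rw [if_pos h, if_pos h]
    exact mul_le_mul_of_nonneg_right (om_le_near sh (by omega) y) (hep _)
  · rw [if_neg h, if_neg h]

/-- few points near the grid of scale `i` -/
theorem near_count {k i n : ℕ} (hi : i ≤ n) (M3 : ℤ) :
    ∑ y ∈ iv n M3, nearG k i y ≤ 2 ^ (n - i) * (2 * 2 ^ k) := by
  rw [← iv_iv hi]
  have h1 : ∀ c ∈ iv (n - i) M3, ∑ y ∈ iv i c, nearG k i y ≤ 2 * 2 ^ k := by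
    intro c _
    have h2 : ∀ y ∈ iv i c, nearG k i y ≤
        (if y ∈ Ico (2 ^ i * c) (2 ^ i * c + 2 ^ k) then (1 : ℝ) else 0) +
        (if y ∈ Ico (2 ^ i * c + 2 ^ i - 2 ^ k) (2 ^ i * c + 2 ^ i - 2 ^ k + 2 ^ k)
          then (1 : ℝ) else 0) := by
      intro y hy
      rw [mem_iv] at hy
      obtain ⟨c1, c2⟩ := ix_bd i y
      rw [hy] at c1 c2
      unfold nearG
      rw [hy]
      by_cases h : y < 2 ^ i * c + 2 ^ k ∨ 2 ^ i * c + 2 ^ i - 2 ^ k ≤ y
      · rw [if_pos h]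
        rcases h with h3 | h3
        · rw [if_pos (mem_Ico.2 ⟨c1, h3⟩)]
          split_ifs <;> norm_num
        · rw [if_pos (mem_Ico.2 ⟨h3, by linarith⟩ :
            y ∈ Ico (2 ^ i * c + 2 ^ i - 2 ^ k) (2 ^ i * c + 2 ^ i - 2 ^ k + 2 ^ k))]
          split_ifs <;> norm_num
      · rw [if_neg h]
        split_ifs <;> norm_num
    refine (sum_le_sum h2).trans ?_
    rw [sum_add_distrib]
    refine (add_le_add (sum_ind_le _ _) (sum_ind_le _ _)).trans (le_of_eq ?_)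
    rw [card_Ico_pow, card_Ico_pow]
    ring
  refine (sum_le_sum h1).trans (le_of_eq ?_)
  rw [sum_const, card_iv, nsmul_eq_mul]
  push_cast
  ring

/-- **The sum over a root cell.** -/
theorem far_sum (n L : ℕ) (M3 : ℤ) {ep : ℕ → ℝ} (hep : ∀ i, 0 ≤ ep i) :
    ∑ y ∈ iv n M3, far ep n L y ≤
      32 * 2 ^ n * (((L : ℝ) + 2) ^ 2 + 2) / 2 ^ L * ∑ i ∈ range n, ep (i + 1) := by
  unfold far
  have e1 : ∑ y ∈ iv n M3, ∑ k ∈ range (n + 1), ∑ i ∈ range n,
      (if k + L ≤ i then 8 * (((i - k : ℕ) : ℝ) + 1) ^ 2 * nearG k i y * ep (i + 1) else 0) =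
      ∑ i ∈ range n, ∑ k ∈ range (n + 1), ∑ y ∈ iv n M3,
        (if k + L ≤ i then 8 * (((i - k : ℕ) : ℝ) + 1) ^ 2 * nearG k i y * ep (i + 1) else 0) := by
    rw [sum_comm]
    rw [sum_congr rfl fun k _ => sum_comm]
    exact sum_comm
  rw [e1, mul_sum]
  refine sum_le_sum fun i hi => ?_
  rw [mem_range] at hi
  have e2 : ∀ k ∈ range (n + 1), ∑ y ∈ iv n M3,
      (if k + L ≤ i then 8 * (((i - k : ℕ) : ℝ) + 1) ^ 2 * nearG k i y * ep (i + 1) else 0) ≤
      16 * 2 ^ n * ep (i + 1) *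
        (if k + L ≤ i then (((i - k : ℕ) : ℝ) + 1) ^ 2 * ((2 : ℝ) ^ (i - k))⁻¹ else 0) := by
    intro k _
    by_cases h : k + L ≤ i
    · simp only [if_pos h]
      have h1 : ∀ y ∈ iv n M3, 8 * (((i - k : ℕ) : ℝ) + 1) ^ 2 * nearG k i y * ep (i + 1) =
          8 * (((i - k : ℕ) : ℝ) + 1) ^ 2 * ep (i + 1) * nearG k i y := by
        intro y _
        ring
      rw [sum_congr rfl h1, ← mul_sum]
      have h2 := near_count (k := k) hi.le M3
      have h3 : (0 : ℝ) ≤ 8 * (((i - k : ℕ) : ℝ) + 1) ^ 2 * ep (i + 1) :=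
        mul_nonneg (by positivity) (hep _)
      refine (mul_le_mul_of_nonneg_left h2 h3).trans (le_of_eq ?_)
      have h4 : (2 : ℝ) ^ n = 2 ^ (n - i) * (2 ^ (i - k) * 2 ^ k) := by
        rw [← pow_add, ← pow_add]
        congr 1
        omega
      have h5 : (2 : ℝ) ^ (i - k) * ((2 : ℝ) ^ (i - k))⁻¹ = 1 := mul_inv_cancel₀ (by positivity)
      rw [h4]
      calc 8 * (((i - k : ℕ) : ℝ) + 1) ^ 2 * ep (i + 1) * (2 ^ (n - i) * (2 * 2 ^ k))
          = 16 * (((i - k : ℕ) : ℝ) + 1) ^ 2 * ep (i + 1) * (2 ^ (n - i) * 2 ^ k) *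
            ((2 : ℝ) ^ (i - k) * ((2 : ℝ) ^ (i - k))⁻¹) := by rw [h5]; ring
        _ = _ := by ring
    · simp only [if_neg h]
      simp
  refine (sum_le_sum e2).trans ?_
  rw [← mul_sum]
  have e3 : ∑ k ∈ range (n + 1),
      (if k + L ≤ i then (((i - k : ℕ) : ℝ) + 1) ^ 2 * ((2 : ℝ) ^ (i - k))⁻¹ else 0) ≤
      ∑ d ∈ Ico L (n + 1), ((d : ℝ) + 1) ^ 2 * ((2 : ℝ) ^ d)⁻¹ := by
    rw [← sum_filter]
    refine (le_of_eq ?_).trans (sum_le_sum_of_subset_of_nonneg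
      (s := ((range (n + 1)).filter fun k => k + L ≤ i).image fun k => i - k) ?_ ?_)
    · rw [sum_image]
      intro a ha b hb hab
      rw [mem_coe, mem_filter] at ha hb
      simp only at hab
      omega
    · intro d hd
      rw [mem_image] at hd
      obtain ⟨k, hk, rfl⟩ := hd
      rw [mem_filter, mem_range] at hk
      rw [mem_Ico]
      omega
    · intro d _ _
      positivity
  have h16 : (0 : ℝ) ≤ 16 * 2 ^ n * ep (i + 1) := mul_nonneg (by positivity) (hep _)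
  refine (mul_le_mul_of_nonneg_left (e3.trans (tail_sum L (n + 1))) h16).trans (le_of_eq ?_)
  ring

/-- **Few bad points.** -/
theorem bad_meas (n L : ℕ) (M3 : ℤ) {ep : ℕ → ℝ} (hep : ∀ i, 0 ≤ ep i) {κ1 η0 Θ : ℝ}
    (hκ : 0 ≤ κ1) (hη : 0 < η0) (hΘ : ∑ i ∈ range n, ep (i + 1) ≤ Θ * 2 ^ n) :
    (((iv n M3).filter fun y => η0 * 2 ^ n < κ1 * far ep n L y).card : ℝ) ≤
      κ1 * 32 * (((L : ℝ) + 2) ^ 2 + 2) / 2 ^ L * Θ / η0 * 2 ^ n := by
  have hp : (0 : ℝ) < 2 ^ n := by positivity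
  have h1 : (((iv n M3).filter fun y => η0 * 2 ^ n < κ1 * far ep n L y).card : ℝ) *
      (η0 * 2 ^ n) ≤ κ1 * ∑ y ∈ iv n M3, far ep n L y := by
    rw [← nsmul_eq_mul, mul_sum]
    refine (card_nsmul_le_sum _ _ _ fun y hy => (mem_filter.1 hy).2.le).trans ?_
    exact sum_le_sum_of_subset_of_nonneg (filter_subset _ _) fun y _ _ =>
      mul_nonneg hκ (far_nonneg hep n L y)
  have h2 := mul_le_mul_of_nonneg_left (far_sum n L M3 hep) hκ
  have h3 : (0 : ℝ) ≤ κ1 * (32 * 2 ^ n * (((L : ℝ) + 2) ^ 2 + 2) / 2 ^ L) :=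
    mul_nonneg hκ (by positivity)
  have h4 := mul_le_mul_of_nonneg_left hΘ h3
  have h5 : (((iv n M3).filter fun y => η0 * 2 ^ n < κ1 * far ep n L y).card : ℝ) *
      (η0 * 2 ^ n) ≤ κ1 * (32 * 2 ^ n * (((L : ℝ) + 2) ^ 2 + 2) / 2 ^ L) * (Θ * 2 ^ n) := by
    refine h1.trans (h2.trans ?_)
    rw [← mul_assoc]
    exact h4
  rw [← mul_le_mul_iff_left₀ (mul_pos hη hp)]
  refine h5.trans (le_of_eq ?_)
  field_simp

end

end Vale.Agent.P141.H403
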