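import Vale.Agent.P141.H841.Far

/-!
# P141, line (A): the far multiplicity of a point, alive scales only

* `farA n L b al y` : the far multiplicity of `y` from the scales `k` with `al k`;
* `farA_om` : it bounds the far part of every shift;
* `farA_sum` : its sum over a root cell against a weight `w` with small averages on the cells of the
  alive scales.
-/

namespace Vale.Agent.P141.H403

open Finset
open Vale.Agent.P141.PL (iv ix mem_iv)
open Vale.Agent.P141.H841 (om om_nonneg st Nrb ix_bd)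

noncomputable section

open scoped Classical

/-- the far multiplicity of the point `y`, layers weighted by `b`, scales `k` with `al k` only -/
def farA (n L : ℕ) (b : ℕ → ℝ) (al : ℕ → Prop) (y : ℤ) : ℝ :=
  ∑ k ∈ range (n + 1), ∑ i ∈ range n,
    if al k ∧ k + L ≤ i ∧ Nrb k i y then 8 * ((i + 1 - k : ℕ) : ℝ) ^ 2 * b i else 0

theorem farA_nonneg (n L : ℕ) {b : ℕ → ℝ} (hb : ∀ i, 0 ≤ b i) (al : ℕ → Prop) (y : ℤ) :
    0 ≤ farA n L b al y := by
  refine sum_nonneg fun k _ => sum_nonneg fun i _ => ?_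
  split_ifs
  · exact mul_nonneg (by positivity) (hb i)
  · exact le_rfl

theorem farA_le_far (n L : ℕ) {b : ℕ → ℝ} (hb : ∀ i, 0 ≤ b i) (al : ℕ → Prop) (y : ℤ) :
    farA n L b al y ≤ H841.far n L b y := by
  unfold farA H841.far
  refine sum_le_sum fun k _ => sum_le_sum fun i _ => ?_
  by_cases h : k + L ≤ i ∧ Nrb k i y
  · rw [if_pos h]
    split_ifs
    · exact le_rfl
    · exact mul_nonneg (by positivity) (hb i)
  · rw [if_neg h, if_neg fun h' => h h'.2]

/-- **Every shift.** -/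
theorem farA_om (n L : ℕ) (sh : ℤ) {b : ℕ → ℝ} (hb : ∀ i, 0 ≤ b i) (al : ℕ → Prop) (y : ℤ) :
    ∑ k ∈ range (n + 1), ∑ i ∈ range n,
      (if al k ∧ k + L ≤ i then om sh k i y * b i else 0) ≤ farA n L b al y := by
  unfold farA
  refine sum_le_sum fun k _ => sum_le_sum fun i _ => ?_
  by_cases h : al k ∧ k + L ≤ i
  · rw [if_pos h, H690.om_stg (by omega)]
    by_cases hc : ix i (st sh k y) = ix i (st sh k y + 2 ^ k)
    · unfold H690.stg
      rw [if_pos hc, mul_zero, zero_mul]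
      split_ifs
      · exact mul_nonneg (by positivity) (hb i)
      · exact le_rfl
    · have h2 : Nrb k i y := H690.stg_near hc
      unfold H690.stg
      rw [if_neg hc, if_pos ⟨h.1, h.2, h2⟩, mul_one]
  · rw [if_neg h, if_neg fun h' => h ⟨h'.1, h'.2.1⟩]

/-- one cell of an alive scale -/
theorem cell_al (k : ℕ) (p : ℤ) {al : ℤ → Prop} {w : ℤ → ℝ} {lam : ℝ} (hlam : 0 ≤ lam)
    (hw : ∀ y, 0 ≤ w y) (hf : ∀ y ∈ iv k p, al y → ∑ z ∈ iv k p, w z ≤ lam * 2 ^ k) :
    ∑ y ∈ iv k p, (if al y then w y else 0) ≤ lam * 2 ^ k := by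
  by_cases h : ∃ y ∈ iv k p, al y
  · obtain ⟨y, hy, ha⟩ := h
    refine (sum_le_sum fun z _ => ?_).trans (hf y hy ha)
    split_ifs
    · exact le_rfl
    · exact hw z
  · have h1 : ∑ y ∈ iv k p, (if al y then w y else 0) = 0 := by
      refine sum_eq_zero fun y hy => ?_
      rw [if_neg fun ha => h ⟨y, hy, ha⟩]
    rw [h1]
    positivity

/-- the strip along the border of one cell of scale `i` -/
theorem strip {k i : ℕ} (hki : k ≤ i) (c : ℤ) {al : ℤ → Prop} {w : ℤ → ℝ} {lam : ℝ}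
    (hlam : 0 ≤ lam) (hw : ∀ y, 0 ≤ w y)
    (hf : ∀ y ∈ iv i c, al y → ∑ z ∈ iv k (ix k y), w z ≤ lam * 2 ^ k) :
    ∑ y ∈ iv i c, (if al y ∧ Nrb k i y then w y else 0) ≤ 2 * (lam * 2 ^ k) := by
  set pA : ℤ := 2 ^ (i - k) * c with hpA
  set pB : ℤ := 2 ^ (i - k) * c + 2 ^ (i - k) - 1 with hpB
  have e2 : (2 : ℤ) ^ i = 2 ^ k * 2 ^ (i - k) := by
    rw [← pow_add]
    congr 1
    omega
  have hk : (0 : ℤ) < 2 ^ k := by positivity
  have hik : (1 : ℤ) ≤ 2 ^ (i - k) := one_le_pow₀ (by norm_num)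
  have eA : (2 : ℤ) ^ k * pA = 2 ^ i * c := by rw [hpA, e2]; ring
  have eB : (2 : ℤ) ^ k * pB = 2 ^ i * c + 2 ^ i - 2 ^ k := by rw [hpB, e2]; ring
  have mA : ∀ y, y ∈ iv k pA ↔ 2 ^ i * c ≤ y ∧ y < 2 ^ i * c + 2 ^ k := by
    intro y
    unfold PL.iv
    rw [mem_Ico, eA]
  have mB : ∀ y, y ∈ iv k pB ↔ 2 ^ i * c + 2 ^ i - 2 ^ k ≤ y ∧ y < 2 ^ i * c + 2 ^ i := by
    intro y
    unfold PL.iv
    rw [mem_Ico, eB]
    constructor
    · rintro ⟨h1, h2⟩
      exact ⟨h1, by linarith⟩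
    · rintro ⟨h1, h2⟩
      exact ⟨h1, by linarith⟩
  have hle : (2 : ℤ) ^ k ≤ 2 ^ i := by
    rw [e2]
    nlinarith
  have mI : ∀ y, y ∈ iv i c ↔ 2 ^ i * c ≤ y ∧ y < 2 ^ i * c + 2 ^ i := by
    intro y
    unfold PL.iv
    rw [mem_Ico]
  have hsub : (iv i c).filter (fun y => al y ∧ Nrb k i y) ⊆
      (iv k pA ∪ iv k pB).filter al := by
    intro y hy
    rw [mem_filter] at hy
    obtain ⟨b1, b2⟩ := ix_bd i y
    have hyc := mem_iv.1 hy.1
    rw [hyc] at b1 b2
    have h2 := hy.2.2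
    unfold H841.Nrb at h2
    rw [hyc] at h2
    rw [mem_filter, mem_union, mA, mB]
    rcases h2 with h2 | h2
    · exact ⟨Or.inl ⟨b1, h2⟩, hy.2.1⟩
    · exact ⟨Or.inr ⟨h2, b2⟩, hy.2.1⟩
  rw [← sum_filter]
  refine (sum_le_sum_of_subset_of_nonneg hsub fun y _ _ => hw y).trans ?_
  rw [filter_union]
  have h3 := sum_union_inter (s₁ := (iv k pA).filter al) (s₂ := (iv k pB).filter al) (f := w)
  have h4 : 0 ≤ ∑ y ∈ (iv k pA).filter al ∩ (iv k pB).filter al, w y :=
    sum_nonneg fun y _ => hw y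
  have h5 : ∑ y ∈ (iv k pA).filter al, w y ≤ lam * 2 ^ k := by
    rw [sum_filter]
    refine cell_al k pA hlam hw fun y hy ha => ?_
    have hm := mem_iv.1 hy
    have hI : y ∈ iv i c := by
      rw [mI]
      rw [mA] at hy
      exact ⟨hy.1, by linarith [hy.2]⟩
    have := hf y hI ha
    rwa [hm] at this
  have h6 : ∑ y ∈ (iv k pB).filter al, w y ≤ lam * 2 ^ k := by
    rw [sum_filter]
    refine cell_al k pB hlam hw fun y hy ha => ?_
    have hm := mem_iv.1 hy
    have hI : y ∈ iv i c := by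
      rw [mI]
      rw [mB] at hy
      exact ⟨by linarith [hy.1], hy.2⟩
    have := hf y hI ha
    rwa [hm] at this
  linarith

/-- the strips of the cells of scale `i` inside a root cell -/
theorem strips {k i n : ℕ} (hki : k ≤ i) (hin : i ≤ n) (M : ℤ) {al : ℤ → Prop} {w : ℤ → ℝ}
    {lam : ℝ} (hlam : 0 ≤ lam) (hw : ∀ y, 0 ≤ w y)
    (hf : ∀ y ∈ iv n M, al y → ∑ z ∈ iv k (ix k y), w z ≤ lam * 2 ^ k) :
    ∑ y ∈ iv n M, (if al y ∧ Nrb k i y then w y else 0) ≤ 2 * 2 ^ (n - i) * (lam * 2 ^ k) := by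
  rw [← H922.iv_iv hin]
  have one : ∀ c ∈ iv (n - i) M, ∑ y ∈ iv i c, (if al y ∧ Nrb k i y then w y else 0) ≤
      2 * (lam * 2 ^ k) := by
    intro c hc
    refine strip hki c hlam hw fun y hy ha => hf y ?_ ha
    rw [mem_iv] at hy hc ⊢
    rw [← hc, ← hy, PL.ix_ix]
    congr 1
    omega
  refine (sum_le_sum one).trans (le_of_eq ?_)
  rw [sum_const, PL.card_iv, nsmul_eq_mul]
  push_cast
  ring

/-- **The sum of the far multiplicities over a root**, against a weight with small averages on the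
cells of the alive scales. -/
theorem farA_sum (n L : ℕ) (M : ℤ) {b : ℕ → ℝ} (hb : ∀ i, 0 ≤ b i) {al : ℕ → ℤ → Prop}
    {w : ℤ → ℝ} {lam : ℝ} (hlam : 0 ≤ lam) (hw : ∀ y, 0 ≤ w y)
    (fib : ∀ k ≤ n, ∀ y ∈ iv n M, al k y → ∑ z ∈ iv k (ix k y), w z ≤ lam * 2 ^ k) :
    ∑ y ∈ iv n M, farA n L b (fun k => al k y) y * w y ≤
      64 * 2 ^ n * (((L : ℝ) + 2) ^ 2 + 2) / 2 ^ L * lam * ∑ i ∈ range n, b i := by
  have e0 : ∑ y ∈ iv n M, farA n L b (fun k => al k y) y * w y =
      ∑ i ∈ range n, ∑ k ∈ range (n + 1), ∑ y ∈ iv n M,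
        (if al k y ∧ k + L ≤ i ∧ Nrb k i y then 8 * ((i + 1 - k : ℕ) : ℝ) ^ 2 * b i * w y
          else 0) := by
    unfold farA
    simp only [sum_mul, ite_mul, zero_mul]
    rw [sum_comm]
    rw [sum_comm (s := range n) (t := range (n + 1))]
    exact sum_congr rfl fun k _ => sum_comm
  rw [e0, mul_sum]
  refine sum_le_sum fun i hi => ?_
  rw [mem_range] at hi
  calc ∑ k ∈ range (n + 1), ∑ y ∈ iv n M,
        (if al k y ∧ k + L ≤ i ∧ Nrb k i y then 8 * ((i + 1 - k : ℕ) : ℝ) ^ 2 * b i * w y else 0)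
      ≤ ∑ k ∈ range (n + 1), (if k + L ≤ i then
          16 * 2 ^ n * b i * lam * ((((i - k : ℕ) : ℝ) + 1) ^ 2 / 2 ^ (i - k)) else 0) := by
        refine sum_le_sum fun k _ => ?_
        by_cases h : k + L ≤ i
        · simp only [h, true_and, if_true]
          have h1 := strips (k := k) (i := i) (n := n) (by omega) hi.le M (al := al k) hlam hw
            (fun y hy ha => fib k (by omega) y hy ha)
          calc ∑ y ∈ iv n M, (if al k y ∧ Nrb k i y then
                8 * ((i + 1 - k : ℕ) : ℝ) ^ 2 * b i * w y else 0)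
              = 8 * ((i + 1 - k : ℕ) : ℝ) ^ 2 * b i *
                  ∑ y ∈ iv n M, (if al k y ∧ Nrb k i y then w y else 0) := by
                rw [mul_sum]
                refine sum_congr rfl fun y _ => ?_
                split_ifs <;> ring
            _ ≤ 8 * ((i + 1 - k : ℕ) : ℝ) ^ 2 * b i * (2 * 2 ^ (n - i) * (lam * 2 ^ k)) :=
                mul_le_mul_of_nonneg_left h1 (mul_nonneg (by positivity) (hb i))
            _ = _ := by
                have e2 : i + 1 - k = i - k + 1 := by omega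
                have e3 : (2 : ℝ) ^ n = 2 ^ (n - i) * 2 ^ k * 2 ^ (i - k) := by
                  rw [← pow_add, ← pow_add]
                  congr 1
                  omega
                rw [e2, e3]
                push_cast
                field_simp
                ring
        · simp only [h, false_and, and_false, if_false, sum_const_zero, le_refl]
    _ = ∑ k ∈ (range (n + 1)).filter (fun k => k + L ≤ i),
          16 * 2 ^ n * b i * lam * ((((i - k : ℕ) : ℝ) + 1) ^ 2 / 2 ^ (i - k)) :=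
        (sum_filter _ _).symm
    _ ≤ ∑ m ∈ Ico L (i + 1), 16 * 2 ^ n * b i * lam * (((m : ℝ) + 1) ^ 2 / 2 ^ m) := by
        rw [← sum_image (s := (range (n + 1)).filter (fun k => k + L ≤ i))
          (g := fun k : ℕ => i - k)
          (f := fun m : ℕ => 16 * 2 ^ n * b i * lam * ((((m : ℕ) : ℝ) + 1) ^ 2 / 2 ^ m))]
        · refine sum_le_sum_of_subset_of_nonneg ?_ fun m _ _ =>
            mul_nonneg (mul_nonneg (mul_nonneg (by positivity) (hb i)) hlam) (by positivity)
          intro m hm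
          rw [mem_image] at hm
          obtain ⟨k, hk, rfl⟩ := hm
          rw [mem_filter, mem_range] at hk
          rw [mem_Ico]
          omega
        · intro x hx z hz hxz
          simp only [coe_filter, mem_range, Set.mem_ofPred_eq] at hx hz
          simp only at hxz
          omega
    _ ≤ 16 * 2 ^ n * b i * lam * (2 * (((L : ℝ) + 2) ^ 2 + 2) / 2 ^ L) := by
        rw [← mul_sum]
        exact mul_le_mul_of_nonneg_left (H690.ser2_Ico L (i + 1))
          (mul_nonneg (mul_nonneg (by positivity) (hb i)) hlam)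
    _ ≤ 64 * 2 ^ n * (((L : ℝ) + 2) ^ 2 + 2) / 2 ^ L * lam * b i := by
        have h0 : 0 ≤ 2 ^ n * (((L : ℝ) + 2) ^ 2 + 2) / 2 ^ L * lam * b i :=
          mul_nonneg (mul_nonneg (by positivity) hlam) (hb i)
        have e4 : 16 * 2 ^ n * b i * lam * (2 * (((L : ℝ) + 2) ^ 2 + 2) / 2 ^ L) =
            32 * (2 ^ n * (((L : ℝ) + 2) ^ 2 + 2) / 2 ^ L * lam * b i) := by ring
        have e5 : 64 * 2 ^ n * (((L : ℝ) + 2) ^ 2 + 2) / 2 ^ L * lam * b i =
            64 * (2 ^ n * (((L : ℝ) + 2) ^ 2 + 2) / 2 ^ L * lam * b i) := by ring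
        rw [e4, e5]
        linarith

end

end Vale.Agent.P141.H403
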