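import Vale.Agent.P141.H841.Lay

/-!
# P141, line (A): the near layers of the slot on a shifted grid, the sum lemma `near_lay`
-/

open Finset

namespace Vale.Agent.P141.H403

noncomputable section

theorem swap_lt (n : ℕ) {E g : ℕ → ℝ} {B : ℝ} (hE : ∀ j, 0 ≤ E j)
    (hB : ∀ N, ∑ m ∈ range N, g (m + 1) ≤ B) :
    ∑ k ∈ range (n + 1), ∑ j ∈ range k, E j * g (k - j) ≤ B * ∑ j ∈ range n, E j := by
  have h1 : ∑ k ∈ range (n + 1), ∑ j ∈ range k, E j * g (k - j)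
      = ∑ j ∈ range n, ∑ k ∈ Ico (j + 1) (n + 1), E j * g (k - j) := by
    refine sum_comm' fun k j => ?_
    simp only [mem_range, mem_Ico]
    omega
  rw [h1, mul_sum]
  refine sum_le_sum fun j _ => ?_
  rw [← mul_sum, sum_Ico_eq_sum_range, mul_comm]
  refine mul_le_mul_of_nonneg_right ?_ (hE j)
  have h2 : ∀ m ∈ range (n + 1 - (j + 1)), g (j + 1 + m - j) = g (m + 1) := by
    intro m _
    congr 1
    omega
  rw [sum_congr rfl h2]
  exact hB _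

theorem tail_c (N : ℕ) (a : ℝ) (ha : 0 ≤ a) :
    ∑ p ∈ range N, (a + p + 2) ^ 2 * (a + p + 1) * ((2 : ℝ) ^ p)⁻¹
      ≤ 2 * a ^ 3 + 16 * a ^ 2 + 54 * a + 80 := by
  have h : ∀ N : ℕ, ∑ p ∈ range N, (a + p + 2) ^ 2 * (a + p + 1) * ((2 : ℝ) ^ p)⁻¹
      = (2 * a ^ 3 + 16 * a ^ 2 + 54 * a + 80)
        - (2 * (a + N) ^ 3 + 16 * (a + N) ^ 2 + 54 * (a + N) + 80) * ((2 : ℝ) ^ N)⁻¹ := by
    intro N
    induction N with
    | zero => simp
    | succ N ih =>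
      have e : ((2 : ℝ) ^ (N + 1))⁻¹ = ((2 : ℝ) ^ N)⁻¹ * 2⁻¹ := by rw [pow_succ, mul_inv]
      rw [sum_range_succ, ih, e]
      push_cast
      ring
  rw [h]
  have : 0 ≤ (2 * (a + N) ^ 3 + 16 * (a + N) ^ 2 + 54 * (a + N) + 80) * ((2 : ℝ) ^ N)⁻¹ := by
    positivity
  linarith

theorem tail_d (N : ℕ) :
    ∑ m ∈ range N, (2 * (m : ℝ) ^ 3 + 16 * (m : ℝ) ^ 2 + 54 * m + 80) * ((2 : ℝ) ^ m)⁻¹
      ≤ 416 := by
  have h : ∀ N : ℕ,
      ∑ m ∈ range N, (2 * (m : ℝ) ^ 3 + 16 * (m : ℝ) ^ 2 + 54 * m + 80) * ((2 : ℝ) ^ m)⁻¹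
      = 416 - (4 * (N : ℝ) ^ 3 + 44 * (N : ℝ) ^ 2 + 208 * N + 416) * ((2 : ℝ) ^ N)⁻¹ := by
    intro N
    induction N with
    | zero => norm_num
    | succ N ih =>
      have e : ((2 : ℝ) ^ (N + 1))⁻¹ = ((2 : ℝ) ^ N)⁻¹ * 2⁻¹ := by rw [pow_succ, mul_inv]
      rw [sum_range_succ, ih, e]
      push_cast
      ring
  rw [h]
  have : 0 ≤ (4 * (N : ℝ) ^ 3 + 44 * (N : ℝ) ^ 2 + 208 * N + 416) * ((2 : ℝ) ^ N)⁻¹ := by
    positivity
  linarith

/-- the fine layers -/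
theorem fine_le (n : ℕ) {E : ℕ → ℝ} (hE : ∀ j, 0 ≤ E j) :
    ∑ k ∈ range (n + 1), ∑ i ∈ range k, 8 * ((k - i : ℕ) : ℝ) ^ 2 * ((4 : ℝ) ^ (k - i))⁻¹ *
        (((k - i - 1 : ℕ) : ℝ) * 2 ^ (k - i - 1) * ∑ j ∈ Ico (i + 1) k, E j)
      ≤ 416 * ∑ j ∈ range n, E j := by
  refine le_trans (sum_le_sum fun k _ => ?_) (swap_lt n (g := fun m =>
    (2 * ((m - 1 : ℕ) : ℝ) ^ 3 + 16 * ((m - 1 : ℕ) : ℝ) ^ 2 + 54 * ((m - 1 : ℕ) : ℝ) + 80)
      * ((2 : ℝ) ^ (m - 1))⁻¹) hE fun N => ?_)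
  · have h1 : ∑ i ∈ range k, 8 * ((k - i : ℕ) : ℝ) ^ 2 * ((4 : ℝ) ^ (k - i))⁻¹ *
        (((k - i - 1 : ℕ) : ℝ) * 2 ^ (k - i - 1) * ∑ j ∈ Ico (i + 1) k, E j)
        = ∑ i ∈ range k, ∑ j ∈ Ico (i + 1) k, 8 * ((k - i : ℕ) : ℝ) ^ 2 * ((4 : ℝ) ^ (k - i))⁻¹ *
          (((k - i - 1 : ℕ) : ℝ) * 2 ^ (k - i - 1)) * E j := by
      refine sum_congr rfl fun i _ => ?_
      rw [← mul_sum]
      ring
    have h2 : ∑ i ∈ range k, ∑ j ∈ Ico (i + 1) k,
          8 * ((k - i : ℕ) : ℝ) ^ 2 * ((4 : ℝ) ^ (k - i))⁻¹ *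
          (((k - i - 1 : ℕ) : ℝ) * 2 ^ (k - i - 1)) * E j
        = ∑ j ∈ range k, ∑ i ∈ range j, 8 * ((k - i : ℕ) : ℝ) ^ 2 * ((4 : ℝ) ^ (k - i))⁻¹ *
          (((k - i - 1 : ℕ) : ℝ) * 2 ^ (k - i - 1)) * E j := by
      refine sum_comm' fun i j => ?_
      simp only [mem_range, mem_Ico]
      omega
    rw [h1, h2]
    refine sum_le_sum fun j hj => ?_
    rw [mem_range] at hj
    rw [← sum_mul, mul_comm]
    refine mul_le_mul_of_nonneg_left ?_ (hE j)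
    set a : ℕ := k - j - 1 with ha
    rw [← sum_range_reflect]
    have h3 : ∀ p ∈ range j, 8 * ((k - (j - 1 - p) : ℕ) : ℝ) ^ 2 *
          ((4 : ℝ) ^ (k - (j - 1 - p)))⁻¹ *
          (((k - (j - 1 - p) - 1 : ℕ) : ℝ) * 2 ^ (k - (j - 1 - p) - 1))
        = ((2 : ℝ) ^ a)⁻¹ * (((a : ℝ) + p + 2) ^ 2 * ((a : ℝ) + p + 1) * ((2 : ℝ) ^ p)⁻¹) := by
      intro p hp
      rw [mem_range] at hp
      have e1 : k - (j - 1 - p) = a + p + 2 := by omega
      have e2 : k - (j - 1 - p) - 1 = a + p + 1 := by omega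
      rw [e2, e1]
      have e4 : (4 : ℝ) ^ (a + p + 2) = (2 ^ a * 2 ^ p) * (2 ^ a * 2 ^ p) * 16 := by
        rw [show (4 : ℝ) = 2 * 2 by norm_num, mul_pow, pow_add, pow_add]
        ring
      rw [e4, pow_succ, pow_add]
      push_cast
      field_simp
      ring
    rw [sum_congr rfl h3, ← mul_sum, mul_comm]
    exact mul_le_mul_of_nonneg_right (tail_c j a (Nat.cast_nonneg a)) (by positivity)
  · have h := tail_d N
    simpa using h

/-- the coarse layers -/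
theorem coarse_le (n L : ℕ) {E : ℕ → ℝ} (hE : ∀ j, 0 ≤ E j) :
    ∑ k ∈ range (n + 1), ∑ i ∈ Ico k n, (if i + 1 ≤ k + L then 8 * ((i + 1 - k : ℕ) : ℝ) ^ 2 *
        (((i + 1 - k : ℕ) : ℝ) * ∑ j ∈ Ico k (i + 1), E j) else 0)
      ≤ 8 * (L : ℝ) ^ 5 * ∑ j ∈ range n, E j := by
  have h1 : ∀ k ∈ range (n + 1), ∑ i ∈ Ico k n, (if i + 1 ≤ k + L then
        8 * ((i + 1 - k : ℕ) : ℝ) ^ 2 *
        (((i + 1 - k : ℕ) : ℝ) * ∑ j ∈ Ico k (i + 1), E j) else 0)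
      ≤ 8 * (L : ℝ) ^ 4 * ∑ j ∈ range n, (if k ≤ j ∧ j < k + L then E j else 0) := by
    intro k _
    have hc : ∑ i ∈ Ico k n, (if i + 1 ≤ k + L then (1 : ℝ) else 0) ≤ L := by
      rw [← sum_filter, sum_const, nsmul_eq_mul, mul_one]
      have : ((Ico k n).filter fun i => i + 1 ≤ k + L) ⊆ Ico k (k + L) := by
        intro i
        simp only [mem_filter, mem_Ico]
        omega
      have h := card_le_card this
      rw [Nat.card_Ico, Nat.add_sub_cancel_left] at h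
      exact_mod_cast h
    set S := ∑ j ∈ range n, (if k ≤ j ∧ j < k + L then E j else 0) with hS
    have hS0 : 0 ≤ S := sum_nonneg fun j _ => by split_ifs; exacts [hE j, le_rfl]
    have h2 : ∀ i ∈ Ico k n, (if i + 1 ≤ k + L then 8 * ((i + 1 - k : ℕ) : ℝ) ^ 2 *
        (((i + 1 - k : ℕ) : ℝ) * ∑ j ∈ Ico k (i + 1), E j) else 0)
        ≤ (8 * (L : ℝ) ^ 3 * S) * (if i + 1 ≤ k + L then (1 : ℝ) else 0) := by
      intro i hi
      rw [mem_Ico] at hi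
      split_ifs with hc
      · have h3 : ∑ j ∈ Ico k (i + 1), E j ≤ S := by
          rw [hS, ← sum_filter]
          refine sum_le_sum_of_subset_of_nonneg ?_ fun j _ _ => hE j
          intro j
          simp only [mem_filter, mem_Ico, mem_range]
          omega
        have h4 : ((i + 1 - k : ℕ) : ℝ) ≤ L := by
          have : i + 1 - k ≤ L := by omega
          exact_mod_cast this
        have h5 : (0 : ℝ) ≤ ((i + 1 - k : ℕ) : ℝ) := Nat.cast_nonneg _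
        have h6 : 0 ≤ ∑ j ∈ Ico k (i + 1), E j := sum_nonneg fun j _ => hE j
        have h7 : ((i + 1 - k : ℕ) : ℝ) ^ 3 ≤ (L : ℝ) ^ 3 := pow_le_pow_left₀ h5 h4 3
        calc 8 * ((i + 1 - k : ℕ) : ℝ) ^ 2 * (((i + 1 - k : ℕ) : ℝ) * ∑ j ∈ Ico k (i + 1), E j)
            = 8 * (((i + 1 - k : ℕ) : ℝ) ^ 3 * ∑ j ∈ Ico k (i + 1), E j) := by ring
          _ ≤ 8 * ((L : ℝ) ^ 3 * S) := by
              refine mul_le_mul_of_nonneg_left ?_ (by norm_num)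
              exact mul_le_mul h7 h3 h6 (by positivity)
          _ = _ := by ring
      · simp
    refine (sum_le_sum h2).trans ?_
    rw [← mul_sum]
    calc _ ≤ (8 * (L : ℝ) ^ 3 * S) * L := mul_le_mul_of_nonneg_left hc (by positivity)
      _ = _ := by ring
  refine (sum_le_sum h1).trans ?_
  rw [← mul_sum, sum_comm]
  have h3 : ∀ j ∈ range n, ∑ k ∈ range (n + 1), (if k ≤ j ∧ j < k + L then E j else 0)
      ≤ (L : ℝ) * E j := by
    intro j _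
    rw [← sum_filter, sum_const, nsmul_eq_mul]
    refine mul_le_mul_of_nonneg_right ?_ (hE j)
    have : ((range (n + 1)).filter fun k => k ≤ j ∧ j < k + L) ⊆ Ico (j + 1 - L) (j + 1) := by
      intro k
      simp only [mem_filter, mem_Ico, mem_range]
      omega
    have h := card_le_card this
    rw [Nat.card_Ico] at h
    have h' : ((range (n + 1)).filter fun k => k ≤ j ∧ j < k + L).card ≤ L := by omega
    exact_mod_cast h'
  calc 8 * (L : ℝ) ^ 4 * ∑ j ∈ range n, ∑ k ∈ range (n + 1), (if k ≤ j ∧ j < k + L then E j else 0)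
      ≤ 8 * (L : ℝ) ^ 4 * ∑ j ∈ range n, (L : ℝ) * E j :=
        mul_le_mul_of_nonneg_left (sum_le_sum h3) (by positivity)
    _ = _ := by rw [← mul_sum]; ring

/-- **(Q2)** of 15452 -/
theorem near_lay (n L : ℕ) (sh y : ℤ) {E : ℕ → ℝ} (hE : ∀ j, 0 ≤ E j) :
    ∑ k ∈ range (n + 1), ∑ i ∈ range n, (if i + 1 ≤ k + L then H841.om sh k i y *
        (if i < k then ((k - i - 1 : ℕ) : ℝ) * 2 ^ (k - i - 1) * ∑ j ∈ Ico (i + 1) k, E j
          else ((i + 1 - k : ℕ) : ℝ) * ∑ j ∈ Ico k (i + 1), E j) else 0)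
      ≤ (600 + 8 * (L : ℝ) ^ 5) * ∑ j ∈ range n, E j := by
  have key : ∀ k ∈ range (n + 1), ∑ i ∈ range n, (if i + 1 ≤ k + L then H841.om sh k i y *
        (if i < k then ((k - i - 1 : ℕ) : ℝ) * 2 ^ (k - i - 1) * ∑ j ∈ Ico (i + 1) k, E j
          else ((i + 1 - k : ℕ) : ℝ) * ∑ j ∈ Ico k (i + 1), E j) else 0)
      ≤ ∑ i ∈ range k, 8 * ((k - i : ℕ) : ℝ) ^ 2 * ((4 : ℝ) ^ (k - i))⁻¹ *
        (((k - i - 1 : ℕ) : ℝ) * 2 ^ (k - i - 1) * ∑ j ∈ Ico (i + 1) k, E j)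
        + ∑ i ∈ Ico k n, (if i + 1 ≤ k + L then 8 * ((i + 1 - k : ℕ) : ℝ) ^ 2 *
        (((i + 1 - k : ℕ) : ℝ) * ∑ j ∈ Ico k (i + 1), E j) else 0) := by
    intro k hk
    rw [mem_range] at hk
    rw [range_eq_Ico, ← sum_Ico_consecutive _ (Nat.zero_le k) (by omega : k ≤ n), ← range_eq_Ico]
    refine add_le_add (sum_le_sum fun i hi => ?_) (sum_le_sum fun i hi => ?_)
    · rw [mem_range] at hi
      rw [if_pos (by omega), if_pos hi]
      unfold H841.om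
      rw [if_pos hi]
    · rw [mem_Ico] at hi
      split_ifs with h1 h2
      · omega
      · refine mul_le_mul_of_nonneg_right ?_ ?_
        · unfold H841.om
          rw [if_neg h2]
          split_ifs
          · positivity
          · exact le_rfl
        · exact mul_nonneg (Nat.cast_nonneg _) (sum_nonneg fun j _ => hE j)
      · exact le_rfl
  refine (sum_le_sum key).trans ?_
  rw [sum_add_distrib]
  have h1 := fine_le n hE
  have h2 := coarse_le n L hE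
  have h3 : 0 ≤ ∑ j ∈ range n, E j := sum_nonneg fun j _ => hE j
  have h4 : (600 + 8 * (L : ℝ) ^ 5) * ∑ j ∈ range n, E j
      = 416 * ∑ j ∈ range n, E j + 8 * (L : ℝ) ^ 5 * ∑ j ∈ range n, E j
        + 184 * ∑ j ∈ range n, E j := by ring
  rw [h4]
  linarith

end

end Vale.Agent.P141.H403
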